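import Vale.Agent.P247.H447.E5.Basic

/-!
# P247, package E5: the two elliptic operators
-/

open scoped ContDiff Topology ENNReal NNReal
open Set MeasureTheory Filter Metric
open Vale.Agent.P247.H74 Vale.Agent.P247.H574 Vale.Agent.P247.H647 Vale.Agent.P247.H957
open Vale.Agent.P247.H931.S1
open Vale.Agent.P363.R.Sob
open Vale.Agent.P247.H306

set_option linter.unusedSectionVars false

noncomputable section

namespace Vale.Agent.P247.H447.E5

/-! ## The Dirac operator -/

/-- the symbol of the Dirac operator -/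
def MD {D : Data} (Q : Quat D) (j : Fin 4) (x : R4) : Sp →L[ℝ] Sp :=
  ∑ c, (Q.b c x j) • (sig c).restrictScalars ℝ

theorem MD_smooth {D : Data} (Q : Quat D) (j : Fin 4) : ContDiff ℝ ∞ (MD Q j) := by
  unfold MD
  refine ContDiff.sum fun c _ => ?_
  exact ((contDiff_pi.1 (Q.b_smooth c)) j).smul contDiff_const

/-- multiplication by `i` -/
def Ic : Sp →L[ℝ] Sp := (Complex.I • ContinuousLinearMap.id ℂ Sp).restrictScalars ℝ

/-- `MD j` after multiplication by `i` -/
def ND {D : Data} (Q : Quat D) (j : Fin 4) (x : R4) : Sp →L[ℝ] Sp := (MD Q j x).comp Ic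

theorem ND_smooth {D : Data} (Q : Quat D) (j : Fin 4) : ContDiff ℝ ∞ (ND Q j) :=
  (MD_smooth Q j).clm_comp contDiff_const

/-- the Dirac equation in terms of the symbol -/
theorem dirac_eq {D : Data} (Q : Quat D) (x : R4) (W : Fin 4 → Sp) (t : Fin 4 → ℝ) (s : Sp) :
    ∑ c, sig c (∑ i, (Q.b c x i : ℂ) • (W i - (Complex.I * ((t i : ℝ) : ℂ)) • s)) =
      ∑ j, MD Q j x (W j) - ∑ j, t j • ND Q j x s := by
  have h1 : ∀ j, MD Q j x (W j) = ∑ c, (Q.b c x j : ℂ) • sig c (W j) := by
    intro j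
    simp only [MD, FunLike.coe_sum, Finset.sum_apply, _root_.smul_apply,
      ContinuousLinearMap.coe_restrictScalars', Complex.coe_smul]
  have h2 : ∀ j, t j • ND Q j x s = ∑ c, (Q.b c x j : ℂ) • sig c ((Complex.I * (t j : ℂ)) • s) := by
    intro j
    simp only [ND, Ic, MD, ContinuousLinearMap.coe_comp, Function.comp_apply,
      FunLike.coe_sum, Finset.sum_apply, _root_.smul_apply,
      ContinuousLinearMap.coe_restrictScalars', Finset.smul_sum, FunLike.coe_smul,
      Pi.smul_apply, ContinuousLinearMap.coe_id', id_eq, map_smul]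
    refine Finset.sum_congr rfl fun c _ => ?_
    rw [smul_comm (t j), mul_comm, mul_smul, Complex.coe_smul, Complex.coe_smul]
  simp only [h1, h2, map_sum, map_smul, map_sub, smul_sub, Finset.sum_sub_distrib]
  congr 1
  · rw [Finset.sum_comm]
  · rw [Finset.sum_comm]

/-! ## The operator `(div, w4 (d ·, tri))` -/

/-- the components of `dxⱼ ∧ dx_q` -/
def cf (q j : Fin 4) (p r : Fin 4) : ℝ :=
  (if p = j ∧ r = q then 1 else 0) - (if p = q ∧ r = j then 1 else 0)

/-- the symbol of the operator `(div, w4 (d ·, tri))` -/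
def MA (D : Data) (j : Fin 4) (x : R4) : (Fin 4 → ℝ) →L[ℝ] (ℝ × (Fin 3 → ℝ)) :=
  (ContinuousLinearMap.proj j).prod (ContinuousLinearMap.pi fun k =>
    ∑ q, wdA (cf q j) (triA D k x) • ContinuousLinearMap.proj q)

theorem val_smooth (a : CForm) (u v : R4) : ContDiff ℝ ∞ fun x => a.val x u v := by
  unfold CForm.val
  have h1 : ContDiff ℝ ∞ (fderiv ℝ a.lam) := a.lam_smooth.fderiv_right (by simp)
  have h2 : ∀ u v : R4, ContDiff ℝ ∞ fun x => (fderiv ℝ a.lam x u) v := fun u v =>
    (h1.clm_apply contDiff_const).clm_apply contDiff_const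
  exact (contDiff_const.add (h2 u v)).sub (h2 v u)

theorem triA_smooth (D : Data) (k : Fin 3) (p r : Fin 4) : ContDiff ℝ ∞ fun x => triA D k x p r :=
  val_smooth _ _ _

theorem wdA_smooth {Φ Ψ : R4 → Fin 4 → Fin 4 → ℝ} (h : ∀ p r, ContDiff ℝ ∞ fun x => Φ x p r)
    (h' : ∀ p r, ContDiff ℝ ∞ fun x => Ψ x p r) : ContDiff ℝ ∞ fun x => wdA (Φ x) (Ψ x) := by
  unfold wdA
  exact ((((((h 0 1).mul (h' 2 3)).sub ((h 0 2).mul (h' 1 3))).add ((h 0 3).mul (h' 1 2))).add
    ((h 1 2).mul (h' 0 3))).sub ((h 1 3).mul (h' 0 2))).add ((h 2 3).mul (h' 0 1))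

theorem MA_smooth (D : Data) (j : Fin 4) : ContDiff ℝ ∞ (MA D j) := by
  have h1 : ∀ k q, ContDiff ℝ ∞ fun x => wdA (cf q j) (triA D k x) := fun k q =>
    wdA_smooth (fun _ _ => contDiff_const) (triA_smooth D k)
  have h2 : ContDiff ℝ ∞ fun x => (ContinuousLinearMap.pi fun k =>
      ∑ q, wdA (cf q j) (triA D k x) • (ContinuousLinearMap.proj q : (Fin 4 → ℝ) →L[ℝ] ℝ)) := by
    rw [contDiff_clm_apply_iff]
    intro v
    rw [contDiff_pi]
    intro k
    simp only [ContinuousLinearMap.coe_pi', FunLike.coe_sum, Finset.sum_apply,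
      _root_.smul_apply, ContinuousLinearMap.proj_apply]
    exact ContDiff.sum fun q _ => (h1 k q).smul contDiff_const
  unfold MA
  rw [contDiff_clm_apply_iff]
  intro v
  simp only [ContinuousLinearMap.prod_apply]
  exact contDiff_const.prodMk (h2.clm_apply contDiff_const)

theorem MA_apply (D : Data) (x : R4) (B : Fin 4 → Fin 4 → ℝ) :
    ∑ j, MA D j x (fun q => B j q) =
      (∑ j, B j j, fun k => wdA (fun p q => B p q - B q p) (triA D k x)) := by
  have h1 : (∑ j, MA D j x (fun q => B j q)).1 = ∑ j, B j j := by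
    simp [MA, Prod.fst_sum]
  have h2 : (∑ j, MA D j x (fun q => B j q)).2 =
      fun k => wdA (fun p q => B p q - B q p) (triA D k x) := by
    funext k
    simp only [MA, Prod.snd_sum, ContinuousLinearMap.prod_apply, Finset.sum_apply,
      ContinuousLinearMap.coe_pi', FunLike.coe_sum,
      _root_.smul_apply, ContinuousLinearMap.proj_apply, smul_eq_mul]
    simp only [Fin.sum_univ_four, wdA, cf]
    simp
    ring
  exact Prod.ext h1 h2

end Vale.Agent.P247.H447.E5
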