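import Vale.Agent.P247.H306.SobDef
import Vale.Agent.P247.H931.S1.Sta

/-!
# P247, Stage 2, package E5: statements of the sub-packages

Regularity of weak solutions of the truncated system: first order elliptic systems
`∑ j, M j x (∂ⱼ u) + A u = f` on `ℝ⁴`, for which Gårding's inequality holds locally.
-/

open scoped ContDiff Topology ENNReal NNReal
open Set MeasureTheory Filter Metric
open Vale.Agent.P247.H74 (R4 e)
open Vale.Agent.P363.R.Sob
open Vale.Agent.P247.H306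

noncomputable section

namespace Vale.Agent.P247.H447.E5

/-- Gårding's inequality for the first order operator `∑ j, M j ∂ⱼ` near every point. -/
def Gar {V W : Type*} [NormedAddCommGroup V] [NormedSpace ℝ V] [NormedAddCommGroup W]
    [NormedSpace ℝ W] (M : Fin 4 → R4 → (V →L[ℝ] W)) : Prop :=
  ∀ x₀ : R4, ∃ r : ℝ, 0 < r ∧ ∃ C : ℝ≥0, ∀ φ : R4 → V, ContDiff ℝ ∞ φ → HasCompactSupport φ →
    tsupport φ ⊆ ball x₀ r → ∀ i, eLpNorm (fun x => fderiv ℝ φ x (e i)) 2 volume ≤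
      C * (eLpNorm (fun x => ∑ j, M j x (fderiv ℝ φ x (e j))) 2 volume + eLpNorm φ 2 volume)

/-- `LRC`: the first step, with a potential in `W^{1,4}`. -/
def LRC_statement : Prop := ∀ (V W : Type) [NormedAddCommGroup V] [NormedSpace ℝ V]
  [FiniteDimensional ℝ V] [NormedAddCommGroup W] [NormedSpace ℝ W] [FiniteDimensional ℝ W]
  (M : Fin 4 → R4 → (V →L[ℝ] W)), (∀ i, ContDiff ℝ ∞ (M i)) → Gar M →
  ∀ (A : R4 → (V →L[ℝ] W)) (A' : Fin 4 → R4 → (V →L[ℝ] W)) (f : R4 → W) (u : R4 → V)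
    (P : Fin 4 → R4 → V), LL 4 A → (∀ i, LL 4 (A' i)) → (∀ i, IsWD volume (e i) A (A' i)) →
    Sob 1 f → LL 2 u → (∀ i, LL 2 (P i)) → (∀ i, IsWD volume (e i) u (P i)) →
    (∀ᵐ x, ∑ j, M j x (P j x) + A x (u x) = f x) → Sob 2 u

/-- `LRk`: linear regularity. -/
def LRk_statement : Prop := ∀ (V W : Type) [NormedAddCommGroup V] [NormedSpace ℝ V]
  [FiniteDimensional ℝ V] [NormedAddCommGroup W] [NormedSpace ℝ W] [FiniteDimensional ℝ W]
  (M : Fin 4 → R4 → (V →L[ℝ] W)), (∀ i, ContDiff ℝ ∞ (M i)) → Gar M →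
  ∀ (k : ℕ) (f : R4 → W) (u : R4 → V) (P : Fin 4 → R4 → V), 1 ≤ k → Sob k f → LL 2 u →
    (∀ i, LL 2 (P i)) → (∀ i, IsWD volume (e i) u (P i)) →
    (∀ᵐ x, ∑ j, M j x (P j x) = f x) → Sob (k + 1) u

/-- `GNS` -/
def GNS_statement : Prop := ∀ (V : Type) [NormedAddCommGroup V] [NormedSpace ℝ V]
  [FiniteDimensional ℝ V] (f : R4 → V), Sob 1 f → LL 4 f

/-- `PROD`: products. -/
def PROD_statement : Prop := ∀ (V W X : Type) [NormedAddCommGroup V] [NormedSpace ℝ V]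
  [FiniteDimensional ℝ V] [NormedAddCommGroup W] [NormedSpace ℝ W] [FiniteDimensional ℝ W]
  [NormedAddCommGroup X] [NormedSpace ℝ X] [FiniteDimensional ℝ X] (b : V →L[ℝ] W →L[ℝ] X)
  (i j m : ℕ) (f : R4 → V) (g : R4 → W), Sob i f → Sob j g → m ≤ i → m ≤ j → m + 3 ≤ i + j →
  Sob m fun x => b (f x) (g x)

/-- `COMP`: composition with a smooth map with bounded derivatives. -/
def COMP_statement : Prop := ∀ (V W : Type) [NormedAddCommGroup V] [NormedSpace ℝ V]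
  [FiniteDimensional ℝ V] [NormedAddCommGroup W] [NormedSpace ℝ W] [FiniteDimensional ℝ W]
  (Φ : V → W), ContDiff ℝ ∞ Φ → (∀ n : ℕ, 1 ≤ n → ∃ C : ℝ, ∀ y, ‖iteratedFDeriv ℝ n Φ y‖ ≤ C) →
  ∀ (k : ℕ) (f : R4 → V), 1 ≤ k → Sob k f → Sob k fun x => Φ (f x)

/-- `SMOOTH`: the smooth representative. -/
def SMOOTH_statement : Prop := ∀ (V : Type) [NormedAddCommGroup V] [NormedSpace ℝ V]
  [FiniteDimensional ℝ V] (f : R4 → V), (∀ k, Sob k f) → ∃ g : R4 → V, ContDiff ℝ ∞ g ∧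
  f =ᵐ[volume] g

end Vale.Agent.P247.H447.E5
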