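import Vale.Agent.P247.H447.E5.Sta

/-!
# P247, package E5: elementary facts about `Sob`
-/

open scoped ContDiff Topology ENNReal NNReal
open Set MeasureTheory Filter Metric
open Vale.Agent.P247.H74 (R4 e)
open Vale.Agent.P363.R.Sob
open Vale.Agent.P247.H306

set_option linter.unusedSectionVars false

noncomputable section

namespace Vale.Agent.P247.H447.E5

variable {F G : Type*} [NormedAddCommGroup F] [NormedSpace ℝ F] [NormedAddCommGroup G]
  [NormedSpace ℝ G]

theorem fin_restrict {K : Set R4} (hK : IsCompact K) : IsFiniteMeasure (volume.restrict K) :=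
  ⟨by rw [Measure.restrict_apply MeasurableSet.univ, univ_inter]; exact hK.measure_lt_top⟩

theorem ll_locInt {f : R4 → F} (h : LL 2 f) : LocallyIntegrable f volume := by
  rw [locallyIntegrable_iff]
  intro K hK
  have := fin_restrict hK
  exact (h K hK).integrable (by norm_num)

theorem ll_congr {p : ℝ≥0∞} {f g : R4 → F} (h : LL p f) (hfg : f =ᵐ[volume] g) : LL p g :=
  fun K hK => (h K hK).ae_eq (ae_restrict_of_ae hfg)

theorem ll_add {p : ℝ≥0∞} {f g : R4 → F} (h : LL p f) (h' : LL p g) : LL p fun x => f x + g x :=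
  fun K hK => (h K hK).add (h' K hK)

theorem ll_clm {p : ℝ≥0∞} {f : R4 → F} (L : F →L[ℝ] G) (h : LL p f) : LL p fun x => L (f x) :=
  fun K hK => L.comp_memLp' (h K hK)

theorem ll_of_continuous {p : ℝ≥0∞} {f : R4 → F} (h : Continuous f) : LL p f := by
  intro K hK
  have := fin_restrict hK
  obtain ⟨C, hC⟩ := hK.exists_bound_of_continuousOn h.continuousOn
  refine MemLp.of_bound h.aestronglyMeasurable.restrict C ?_
  rw [ae_restrict_iff' hK.measurableSet]
  exact Eventually.of_forall hC

theorem sob_congr {k : ℕ} {f g : R4 → F} (h : Sob k f) (hfg : f =ᵐ[volume] g) : Sob k g := by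
  induction k generalizing f g with
  | zero => exact ll_congr h hfg
  | succ k ih =>
    refine ⟨ll_congr h.1 hfg, fun i => ?_⟩
    obtain ⟨d, hd, hs⟩ := h.2 i
    exact ⟨d, hd.congr hfg (ae_eq_refl _), hs⟩

theorem sob_add {k : ℕ} {f g : R4 → F} (h : Sob k f) (h' : Sob k g) :
    Sob k fun x => f x + g x := by
  induction k generalizing f g with
  | zero => exact ll_add h h'
  | succ k ih =>
    refine ⟨ll_add h.1 h'.1, fun i => ?_⟩
    obtain ⟨d, hd, hs⟩ := h.2 i
    obtain ⟨d', hd', hs'⟩ := h'.2 i
    exact ⟨fun x => d x + d' x, hd.add hd' (ll_locInt h.1) (ll_locInt hs.ll) (ll_locInt h'.1)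
      (ll_locInt hs'.ll), ih hs hs'⟩

theorem sob_clm [CompleteSpace F] [CompleteSpace G] {k : ℕ} {f : R4 → F} (L : F →L[ℝ] G)
    (h : Sob k f) : Sob k fun x => L (f x) := by
  induction k generalizing f with
  | zero => exact ll_clm L h
  | succ k ih =>
    refine ⟨ll_clm L h.1, fun i => ?_⟩
    obtain ⟨d, hd, hs⟩ := h.2 i
    exact ⟨fun x => L (d x), hd.clm_comp L (fun φ hφ => hφ.integrable_smul (ll_locInt h.1))
      (fun φ hφ => hφ.integrable_smul (ll_locInt hs.ll)), ih hs⟩

theorem sob_neg [CompleteSpace F] {k : ℕ} {f : R4 → F} (h : Sob k f) : Sob k fun x => - f x := by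
  have := sob_clm (-(ContinuousLinearMap.id ℝ F)) h
  simpa using this

theorem sob_sum {ι : Type*} (s : Finset ι) {k : ℕ} {f : ι → R4 → F} (h : ∀ i, Sob k (f i)) :
    Sob k fun x => ∑ i ∈ s, f i x := by
  classical
  induction s using Finset.induction_on with
  | empty =>
    simp only [Finset.sum_empty]
    induction k with
    | zero => exact ll_of_continuous continuous_const
    | succ k ih =>
      exact ⟨ll_of_continuous continuous_const, fun i => ⟨fun _ => 0, isWD_zero,
        ih fun i => (h i).mono (Nat.le_succ k)⟩⟩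
  | insert a s has ih =>
    simp only [Finset.sum_insert has]
    exact sob_add (h a) ih

theorem sob_of_contDiff [CompleteSpace F] {f : R4 → F} (h : ContDiff ℝ ∞ f) (k : ℕ) : Sob k f := by
  induction k generalizing f with
  | zero => exact ll_of_continuous h.continuous
  | succ k ih =>
    refine ⟨ll_of_continuous h.continuous, fun i => ⟨fun x => fderiv ℝ f x (e i), ?_, ih ?_⟩⟩
    · refine isWD_of_differentiable h.continuous (fun x => ?_) ?_
      · exact ((h.differentiable (by simp)) x).hasFDerivAt.hasLineDerivAt (e i)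
      · exact (((h.continuous_fderiv (by simp)).clm_apply continuous_const)).locallyIntegrable
    · exact (h.fderiv_right (m := ∞) (by simp)).clm_apply contDiff_const

end Vale.Agent.P247.H447.E5
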