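import Vale.Agent.P247.H447.E5.Ops

/-!
# P247, package E5: the bootstrap
-/

open scoped ContDiff Topology ENNReal NNReal
open Set MeasureTheory Filter Metric
open Vale.Agent.P247.H74 Vale.Agent.P247.H574 Vale.Agent.P247.H647 Vale.Agent.P247.H957
open Vale.Agent.P247.H931.S1
open Vale.Agent.P363.R.Sob
open Vale.Agent.P247.H306

set_option linter.unusedSectionVars false

noncomputable section

namespace Vale.Agent.P247.H447.E5

theorem isWD_pi {v : R4} {f g : Fin 4 → R4 → ℝ} (hf : ∀ q, LL 2 (f q)) (hg : ∀ q, LL 2 (g q))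
    (h : ∀ q, IsWD volume v (f q) (g q)) :
    IsWD volume v (fun x q => f q x) (fun x q => g q x) := by
  have e1 : ∀ f : Fin 4 → R4 → ℝ, (fun x => (fun q => f q x : Fin 4 → ℝ)) =
      fun x => ∑ q, (ContinuousLinearMap.single ℝ (fun _ : Fin 4 => ℝ) q) (f q x) := by
    intro f
    funext x
    funext p
    simp [Finset.sum_apply, Pi.single_apply]
  rw [e1 f, e1 g]
  intro φ hφ
  have hf' : ∀ q, Integrable (fun x => (fderiv ℝ φ x v) •
      (ContinuousLinearMap.single ℝ (fun _ : Fin 4 => ℝ) q) (f q x)) volume := fun q =>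
    (hφ.fderiv v).integrable_smul (ll_locInt (ll_clm _ (hf q)))
  have hg' : ∀ q, Integrable (fun x => φ x •
      (ContinuousLinearMap.single ℝ (fun _ : Fin 4 => ℝ) q) (g q x)) volume := fun q =>
    hφ.integrable_smul (ll_locInt (ll_clm _ (hg q)))
  simp only [Finset.smul_sum]
  rw [integral_finsetSum _ fun q _ => hf' q, integral_finsetSum _ fun q _ => hg' q,
    ← Finset.sum_neg_distrib]
  refine Finset.sum_congr rfl fun q _ => ?_
  exact (h q).clm_comp (ContinuousLinearMap.single ℝ (fun _ : Fin 4 => ℝ) q)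
    (fun φ hφ => hφ.integrable_smul (ll_locInt (hf q)))
    (fun φ hφ => hφ.integrable_smul (ll_locInt (hg q))) φ hφ

/-! ## The right hand side of the equation for `a` -/

/-- the constant term -/
def cA (D : Data) (v : Fin 3 → ℝ) (x : R4) : ℝ × (Fin 3 → ℝ) :=
  (0, fun k => v k - wdA F0 (triA D k x))

/-- the coefficient of the quadratic term -/
def LA {D : Data} (Q : Quat D) (x : R4) : (Fin 3 → ℝ) →L[ℝ] (ℝ × (Fin 3 → ℝ)) :=
  (0 : (Fin 3 → ℝ) →L[ℝ] ℝ).prod (ContinuousLinearMap.pi fun k =>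
    ∑ l, (-(1 / 2) * Q.T x k l) • (ContinuousLinearMap.proj l : (Fin 3 → ℝ) →L[ℝ] ℝ))

theorem cA_smooth (D : Data) (v : Fin 3 → ℝ) : ContDiff ℝ ∞ (cA D v) := by
  refine contDiff_const.prodMk (contDiff_pi.2 fun k => contDiff_const.sub ?_)
  exact wdA_smooth (fun _ _ => contDiff_const) (triA_smooth D k)

theorem LA_apply {D : Data} (Q : Quat D) (x : R4) (w : Fin 3 → ℝ) :
    LA Q x w = (0, fun k => ∑ l, -(1 / 2) * Q.T x k l * w l) := by
  refine Prod.ext ?_ ?_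
  · simp [LA]
  · funext k
    simp [LA]

theorem LA_smooth {D : Data} (Q : Quat D) : ContDiff ℝ ∞ (LA Q) := by
  rw [contDiff_clm_apply_iff]
  intro w
  simp only [LA_apply]
  refine contDiff_const.prodMk (contDiff_pi.2 fun k => ContDiff.sum fun l _ => ?_)
  exact (contDiff_const.mul (Q.T_smooth k l)).mul contDiff_const

theorem eqA_point {D : Data} (Q : Quat D) {x : R4} {B : Fin 4 → Fin 4 → R4 → ℝ} {v w : Fin 3 → ℝ}
    (h1 : ∑ i, B i i x = 0)
    (h2 : ∀ j, wdA (fun p q => F0 p q + curl B x p q) (triA D j x) =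
      v j - (1 / 2) * ∑ k, Q.T x j k * w k) :
    ∑ j, MA D j x (fun q => B j q x) = cA D v x + LA Q x w := by
  rw [MA_apply D x fun j q => B j q x, h1, LA_apply]
  refine Prod.ext ?_ ?_
  · simp [cA]
  · funext k
    have h3 := h2 k
    have h4 : wdA (fun p q => F0 p q + curl B x p q) (triA D k x) =
        wdA F0 (triA D k x) + wdA (fun p q => B p q x - B q p x) (triA D k x) := by
      simp only [wdA, curl]; ring
    rw [h4] at h3
    simp only [cA, Prod.mk_add_mk, Pi.add_apply]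
    rw [eq_sub_of_add_eq' h3, Finset.mul_sum]
    have : ∀ l, -(1 / 2) * Q.T x k l * w l = -(1 / 2 * (Q.T x k l * w l)) := by
      intro l; ring
    simp only [this, Finset.sum_neg_distrib]
    ring

/-! ## The potential of the equation for `φ` -/

/-- the smooth part -/
def c2 {D : Data} (Q : Quat D) (ξ : ℝ × ℝ) (x : R4) : Sp →L[ℝ] Sp :=
  -∑ j, (A0 ξ x (e j)) • ND Q j x

/-- the coefficient of `a` -/
def L2 {D : Data} (Q : Quat D) (x : R4) : (Fin 4 → ℝ) →L[ℝ] (Sp →L[ℝ] Sp) :=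
  -∑ j, (ContinuousLinearMap.proj j : (Fin 4 → ℝ) →L[ℝ] ℝ).smulRight (ND Q j x)

theorem L2_apply {D : Data} (Q : Quat D) (x : R4) (w : Fin 4 → ℝ) :
    L2 Q x w = -∑ j, w j • ND Q j x := by
  simp [L2]

theorem A0_smooth (ξ : ℝ × ℝ) (j : Fin 4) : ContDiff ℝ ∞ fun x => A0 ξ x (e j) := by
  unfold A0
  have h1 : ContDiff ℝ ∞ fun x : R4 => 2 * Real.pi * x 0 :=
    contDiff_const.mul (contDiff_apply ℝ ℝ (0 : Fin 4))
  have h2 : ContDiff ℝ ∞ fun x : R4 => (2 * Real.pi * x 0) •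
      (ContinuousLinearMap.proj 1 : R4 →L[ℝ] ℝ) := h1.smul contDiff_const
  exact ((h2.sub contDiff_const).sub contDiff_const).clm_apply contDiff_const

theorem c2_smooth {D : Data} (Q : Quat D) (ξ : ℝ × ℝ) : ContDiff ℝ ∞ (c2 Q ξ) :=
  (ContDiff.sum fun j _ => (A0_smooth ξ j).smul (ND_smooth Q j)).neg

theorem L2_smooth' {D : Data} (Q : Quat D) (w : Fin 4 → ℝ) :
    ContDiff ℝ ∞ fun x => -∑ j, w j • ND Q j x := by
  refine ContDiff.neg (ContDiff.sum fun j _ => ?_)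
  exact (ND_smooth Q j).const_smul (w j)

theorem L2_smooth {D : Data} (Q : Quat D) : ContDiff ℝ ∞ (L2 Q) := by
  refine contDiff_clm_apply_iff.2 fun w => ?_
  have h : (fun x => L2 Q x w) = fun x => -∑ j, w j • ND Q j x := by
    funext x
    exact L2_apply Q x w
  rw [h]
  exact L2_smooth' Q w

theorem eqφ_point {D : Data} (Q : Quat D) {ξ : ℝ × ℝ} {x : R4} {W : Fin 4 → Sp} {a : Fin 4 → ℝ}
    {s : Sp} (h1 : ∑ c, sig c (∑ i, (Q.b c x i : ℂ) •
      (W i - (Complex.I * ((A0 ξ x (e i) + a i : ℝ) : ℂ)) • s)) = 0) :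
    ∑ j, MD Q j x (W j) + (c2 Q ξ x + L2 Q x a) s = 0 := by
  rw [dirac_eq Q x W (fun i => A0 ξ x (e i) + a i) s] at h1
  have h2 : (c2 Q ξ x + L2 Q x a) s = -∑ j, (A0 ξ x (e j) + a j) • ND Q j x s := by
    rw [L2_apply]
    simp only [c2, add_smul, Finset.sum_add_distrib, _root_.neg_apply,
      _root_.add_apply, FunLike.coe_sum, Finset.sum_apply, _root_.smul_apply]
    abel
  rw [h2, ← sub_eq_add_neg]
  exact h1

/-! ## The bootstrap -/

theorem sob_apply (hP : PROD_statement) {V W : Type} [NormedAddCommGroup V] [NormedSpace ℝ V]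
    [FiniteDimensional ℝ V] [NormedAddCommGroup W] [NormedSpace ℝ W] [FiniteDimensional ℝ W]
    {i j m : ℕ} {L : R4 → (V →L[ℝ] W)} {g : R4 → V} (hL : Sob i L) (hg : Sob j g)
    (h1 : m ≤ i) (h2 : m ≤ j) (h3 : m + 3 ≤ i + j) : Sob m fun x => L x (g x) :=
  hP _ _ _ (ContinuousLinearMap.id ℝ (V →L[ℝ] W)) i j m L g hL hg h1 h2 h3

theorem boot (hLRC : LRC_statement) (hLRk : LRk_statement) (hGNS : GNS_statement)
    (hP : PROD_statement) (hC : COMP_statement) {D : Data} (Q : Quat D) (hGD : Gar (MD Q))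
    (hGA : Gar (MA D)) {R : ℝ} (hqs : ContDiff ℝ ∞ (qR R))
    (hq : ∀ n : ℕ, 1 ≤ n → ∃ C : ℝ, ∀ y, ‖iteratedFDeriv ℝ n (qR R) y‖ ≤ C)
    {ξ : ℝ × ℝ} {φ : R4 → Sp} {W : Fin 4 → R4 → Sp} {a : Fin 4 → R4 → ℝ}
    {B : Fin 4 → Fin 4 → R4 → ℝ} {v : Fin 3 → ℝ} (h : WSol Q R ξ φ W a B v) (k : ℕ) :
    Sob k φ ∧ Sob k (fun x (j : Fin 4) => a j x) := by
  have hφ : LL 2 φ := h.sec.φ_loc
  have hW : ∀ i, LL 2 (W i) := h.sec.W_loc
  have hdφ : ∀ i, IsWD volume (e i) φ (W i) := fun i η hη => h.sec.der i η hη.1 hη.2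
  have hφ1 : Sob 1 φ := ⟨hφ, fun i => ⟨W i, hdφ i, hW i⟩⟩
  have ha : ∀ i, LL 2 (a i) := h.con.a_loc
  have hB : ∀ i j, LL 2 (B i j) := h.con.B_loc
  have hda : ∀ i j, IsWD volume (e i) (a j) (B i j) := fun i j η hη =>
    h.con.der i j η hη.1 hη.2
  set al : R4 → (Fin 4 → ℝ) := fun x j => a j x with hal
  have hal0 : LL 2 al := fun K hK => MemLp.of_eval fun j => ha j K hK
  have hPA : ∀ i, LL 2 (fun x q => B i q x) := fun i K hK => MemLp.of_eval fun q => hB i q K hK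
  have hdal : ∀ i, IsWD volume (e i) al (fun x q => B i q x) := fun i =>
    isWD_pi ha (hB i) (hda i)
  have eqA : ∀ᵐ x, ∑ j, MA D j x (fun q => B j q x) = cA D v x + LA Q x (qR R (φ x)) := by
    filter_upwards [h.div, h.curv] with x h1 h2
    exact eqA_point Q h1 h2
  have stepA : ∀ k, 1 ≤ k → Sob k φ → Sob (k + 1) al := by
    intro k hk hs
    refine hLRk _ _ (MA D) (MA_smooth D) hGA k _ al (fun i x q => B i q x) hk ?_ hal0 hPA hdal eqA
    refine sob_add (sob_of_contDiff (cA_smooth D v) k) ?_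
    exact sob_apply hP (sob_of_contDiff (LA_smooth Q) (k + 3)) (hC _ _ (qR R) hqs hq k φ hk hs)
      (by omega) le_rfl (by omega)
  set A : R4 → (Sp →L[ℝ] Sp) := fun x => c2 Q ξ x + L2 Q x (al x) with hA
  have sobA : ∀ k, Sob k al → Sob k A := by
    intro k hs
    refine sob_add (sob_of_contDiff (c2_smooth Q ξ) k) ?_
    exact sob_apply hP (sob_of_contDiff (L2_smooth Q) (k + 3)) hs (by omega) le_rfl (by omega)
  have eqφ : ∀ᵐ x, ∑ j, MD Q j x (W j x) + A x (φ x) = 0 := by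
    filter_upwards [h.dirac] with x h1
    exact eqφ_point Q h1
  have a2 : Sob 2 al := stepA 1 le_rfl hφ1
  have A2 : Sob 2 A := sobA 2 a2
  have φ2 : Sob 2 φ := by
    have h1 : ∀ i, ∃ g : R4 → (Sp →L[ℝ] Sp), IsWD volume (e i) A g ∧ Sob 1 g := A2.2
    choose A' hA' hA'1 using h1
    exact hLRC _ _ (MD Q) (MD_smooth Q) hGD A A' (fun _ => 0) φ W
      (hGNS _ A (A2.mono (by norm_num))) (fun i => hGNS _ _ (hA'1 i)) hA'
      (sob_of_contDiff contDiff_const 1) hφ hW hdφ eqφ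
  have stepφ : ∀ k, 2 ≤ k → Sob k φ → Sob (k + 1) φ := by
    intro k hk hs
    have h1 : Sob (k + 1) A := sobA _ (stepA k (by omega) hs)
    have h2 : Sob k fun x => A x (φ x) := sob_apply hP h1 hs (by omega) le_rfl (by omega)
    refine hLRk _ _ (MD Q) (MD_smooth Q) hGD k _ φ W (by omega) (sob_neg h2) hφ hW hdφ ?_
    filter_upwards [eqφ] with x hx
    exact eq_neg_of_add_eq_zero_left hx
  have all : ∀ k, Sob (k + 2) φ := by
    intro k
    induction k with
    | zero => exact φ2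
    | succ k ih => exact stepφ (k + 2) (by omega) ih
  exact ⟨(all k).mono (by omega), (stepA (k + 2) (by omega) (all k)).mono (by omega)⟩

theorem E5_of (hLRC : LRC_statement) (hLRk : LRk_statement) (hGNS : GNS_statement)
    (hP : PROD_statement) (hC : COMP_statement) (hS : SMOOTH_statement)
    (hGD : ∀ (D : Data) (Q : Quat D), Gar (MD Q)) (hGA : ∀ (D : Data) (_ : Quat D), Gar (MA D))
    (hqs : ∀ R : ℝ, 0 < R → ContDiff ℝ ∞ (qR R))
    (hq : ∀ R : ℝ, 0 < R → ∀ n : ℕ, 1 ≤ n → ∃ C : ℝ, ∀ y, ‖iteratedFDeriv ℝ n (qR R) y‖ ≤ C) :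
    E5_statement := by
  intro D Q R ξ φ W a B v hR h
  have hb := boot hLRC hLRk hGNS hP hC Q (hGD D Q) (hGA D Q) (hqs R hR) (hq R hR) h
  obtain ⟨φ', h1, h2⟩ := hS _ φ fun k => (hb k).1
  obtain ⟨a', h3, h4⟩ := hS _ _ fun k => (hb k).2
  refine ⟨φ', fun i x => a' x i, h1, fun i => contDiff_pi.1 h3 i, h2, fun i => ?_⟩
  filter_upwards [h4] with x hx
  rw [← hx]

end Vale.Agent.P247.H447.E5
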