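import Vale.Agent.P247.H447.E5.Ops
import Vale.Agent.P247.H726.Frm

/-!
# P247, package E5: Gårding's inequality for the operator `(div, w4 (d ·, tri))`
-/

open scoped ContDiff Topology ENNReal NNReal
open Set MeasureTheory Filter Metric
open Vale.Agent.P247.H74 Vale.Agent.P247.H574 Vale.Agent.P247.H647
open Vale.Agent.P247.H931.S1 (triA)

set_option linter.unusedSectionVars false

noncomputable section

namespace Vale.Agent.P247.H447.E5

/-! ## Pointwise algebra -/

/-- the bilinear form with components `F` -/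
def bform (F : Fin 4 → Fin 4 → ℝ) : F2 :=
  ∑ p, ∑ q, F p q • (ContinuousLinearMap.proj p : R4 →L[ℝ] ℝ).smulRight
    (ContinuousLinearMap.proj q : R4 →L[ℝ] ℝ)

theorem bform_apply (F : Fin 4 → Fin 4 → ℝ) (u v : R4) :
    bform F u v = ∑ p, ∑ q, F p q * (u p * v q) := by
  simp [bform]

theorem bform_e (F : Fin 4 → Fin 4 → ℝ) (p q : Fin 4) : bform F (e p) (e q) = F p q := by
  rw [bform_apply]
  simp [e, Pi.single_apply]

theorem bform_self {F : Fin 4 → Fin 4 → ℝ} (hF : ∀ p q, F p q = -F q p) (u : R4) :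
    bform F u u = 0 := by
  have h1 : bform F u u = -bform F u u := by
    rw [bform_apply]
    conv_rhs => rw [Finset.sum_comm]
    rw [← Finset.sum_neg_distrib]
    refine Finset.sum_congr rfl fun p _ => ?_
    rw [← Finset.sum_neg_distrib]
    refine Finset.sum_congr rfl fun q _ => ?_
    rw [hF p q]
    ring
  linarith

/-- in an orthonormal frame -/
theorem hat_sq (G : Fin 4 → Fin 4 → ℝ) (hG : ∀ p q, G p q = -G q p) :
    ∑ p, ∑ q, G p q ^ 2 = 2 * (∑ k, hat G k ^ 2 - wdA G G) := by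
  have h0 : ∀ p, G p p = 0 := fun p => by have := hG p p; linarith
  simp only [Fin.sum_univ_four, Fin.sum_univ_three, hat, wdA, h0, hG 1 0, hG 2 0, hG 3 0, hG 2 1,
    hG 3 1, hG 3 2, Matrix.cons_val_zero, Matrix.cons_val_one, Matrix.cons_val_two,
    Matrix.head_cons, Matrix.tail_cons]
  ring

theorem sq_sum_le {ι : Type*} (s : Finset ι) (f : ι → ℝ) :
    (∑ i ∈ s, f i) ^ 2 ≤ s.card * ∑ i ∈ s, f i ^ 2 := sq_sum_le_card_mul_sum_sq

/-- entries of a continuous matrix and of its inverse are bounded on compact sets -/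
theorem inv_bdd {n : Type*} [Fintype n] [DecidableEq n] {M : R4 → Matrix n n ℝ}
    (hM : ∀ i j, Continuous fun x => M x i j) (hdet : ∀ x, (M x).det ≠ 0) {K : Set R4}
    (hK : IsCompact K) : ∃ C : ℝ, 0 ≤ C ∧ ∀ x ∈ K, ∀ i j, |(M x)⁻¹ i j| ≤ C := by
  have hMc : Continuous M := continuous_matrix hM
  have h1 : ∀ i j, ∃ C : ℝ, 0 ≤ C ∧ ∀ x ∈ K, |(M x)⁻¹ i j| ≤ C := by
    intro i j
    have h2 : Continuous fun x => (M x)⁻¹ i j := by
      have h3 : ∀ x, (M x)⁻¹ i j = (M x).det⁻¹ * (M x).adjugate i j := by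
        intro x
        rw [Matrix.inv_def, Ring.inverse_eq_inv']
        rfl
      simp only [h3]
      refine Continuous.mul (Continuous.inv₀ hMc.matrix_det hdet) ?_
      exact hMc.matrix_adjugate.matrix_elem i j
    obtain ⟨C, hC⟩ := hK.exists_bound_of_continuousOn h2.continuousOn
    exact ⟨max C 0, le_max_right _ _, fun x hx => (hC x hx).trans (le_max_left _ _)⟩
  choose C hC0 hC using h1
  refine ⟨∑ i, ∑ j, C i j, Finset.sum_nonneg fun i _ => Finset.sum_nonneg fun j _ => hC0 i j, ?_⟩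
  intro x hx i j
  refine (hC i j x hx).trans ?_
  refine le_trans ?_ (Finset.single_le_sum (f := fun i => ∑ j, C i j)
    (fun i _ => Finset.sum_nonneg fun j _ => hC0 i j) (Finset.mem_univ i))
  exact Finset.single_le_sum (f := fun j => C i j) (fun j _ => hC0 i j) (Finset.mem_univ j)

theorem pw {D : Data} (Q : Quat D) {K : Set R4} (hK : IsCompact K) :
    ∃ C C' : ℝ, 0 ≤ C ∧ 0 ≤ C' ∧ ∀ x ∈ K, ∀ F : Fin 4 → Fin 4 → ℝ, (∀ p q, F p q = -F q p) →
      ∑ p, ∑ q, F p q ^ 2 ≤ C * (C' * ∑ j, wdA F (triA D j x) ^ 2 - wdA F F) := by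
  obtain ⟨n, hn0, hn⟩ := inv_bdd (M := fun x => Matrix.of fun i a => Q.b a x i)
    (fun i a => (contDiff_pi.1 (Q.b_smooth a) i).continuous)
    (fun x => by rw [Q.b_det x]; exact one_ne_zero) hK
  obtain ⟨t, ht0, ht⟩ := inv_bdd (M := fun x => Q.T x) (fun j k => (Q.T_smooth j k).continuous)
    Q.T_det hK
  refine ⟨16 * (16 * n ^ 4) * 2, 3 * (3 * t ^ 2), by positivity, by positivity, ?_⟩
  intro x hx F hF
  obtain ⟨f1, f2, -⟩ := Vale.Agent.P247.H726.frm D Q x
  set G := fr (fun a => Q.b a x) fun p q => bform F p q with hG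
  have hGa : ∀ a c, G a c = -G c a := by
    intro a c
    have h1 := bform_self hF (Q.b a x + Q.b c x)
    simp only [map_add, _root_.add_apply, bform_self hF] at h1
    simp only [hG, fr]
    linarith
  have hw : wdA F F = wdA G G := by
    have h1 := f1 (bform F) (bform F) (bform_self hF) (bform_self hF)
    have h2 : w4 (fun p q => bform F p q) (fun p q => bform F p q) = wdA F F := by
      unfold w4 wdA
      simp only [bform_e]
    rw [← h2, h1]
  have hj : ∀ j, wdA F (triA D j x) = ∑ k, Q.T x j k * hat G k := by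
    intro j
    rw [← f2 (bform F) (bform_self hF) j]
    unfold w4 wdA triA
    simp only [bform_e]
  -- `hat G` from the values `w`
  have hhat : ∀ k, hat G k ^ 2 ≤ 3 * t ^ 2 * ∑ j, wdA F (triA D j x) ^ 2 := by
    intro k
    have h1 : hat G k = ∑ j, (Q.T x)⁻¹ k j * wdA F (triA D j x) := by
      have h2 : (Q.T x)⁻¹.mulVec ((Q.T x).mulVec (hat G)) k = hat G k := by
        rw [Matrix.mulVec_mulVec, Matrix.nonsing_inv_mul _ (isUnit_iff_ne_zero.2 (Q.T_det x)),
          Matrix.one_mulVec]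
      rw [← h2]
      simp only [Matrix.mulVec, dotProduct, hj]
    rw [h1]
    refine (sq_sum_le Finset.univ _).trans ?_
    rw [Finset.card_univ, Fintype.card_fin, mul_assoc (3 : ℝ)]
    refine mul_le_mul_of_nonneg_left ?_ (by norm_num)
    rw [Finset.mul_sum]
    refine Finset.sum_le_sum fun j _ => ?_
    rw [mul_pow]
    refine mul_le_mul_of_nonneg_right ?_ (sq_nonneg _)
    rw [← sq_abs]
    exact pow_le_pow_left₀ (abs_nonneg _) (ht x hx k j) 2
  have hhat' : ∑ k, hat G k ^ 2 ≤ 3 * (3 * t ^ 2) * ∑ j, wdA F (triA D j x) ^ 2 := by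
    refine (Finset.sum_le_sum fun k _ => hhat k).trans ?_
    rw [Finset.sum_const, Finset.card_univ, Fintype.card_fin, nsmul_eq_mul]
    push_cast
    linarith
  -- `F` from `G`
  set N := (Matrix.of fun i a => Q.b a x i)⁻¹ with hN
  have hFe : ∀ p q, F p q = ∑ a, ∑ c, N a p * N c q * G a c := by
    intro p q
    have he : ∀ p, e p = ∑ a, N a p • Q.b a x := by
      intro p
      have h2 : (Matrix.of fun i a => Q.b a x i) * N = 1 :=
        Matrix.mul_nonsing_inv _ (isUnit_iff_ne_zero.2 (by rw [Q.b_det x]; exact one_ne_zero))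
      funext i
      have h3 := congrFun (congrFun h2 i) p
      rw [Matrix.mul_apply, Matrix.one_apply] at h3
      simp only [e, Finset.sum_apply, Pi.smul_apply, smul_eq_mul, Pi.single_apply]
      rw [← h3]
      exact Finset.sum_congr rfl fun a _ => by simp [mul_comm]
    rw [← bform_e F p q]
    nth_rewrite 1 [he p, he q]
    simp only [map_sum, map_smul, FunLike.coe_sum, Finset.sum_apply, _root_.smul_apply,
      smul_eq_mul, Finset.mul_sum]
    rw [Finset.sum_comm]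
    refine Finset.sum_congr rfl fun a _ => Finset.sum_congr rfl fun c _ => ?_
    simp only [hG, fr]
    ring
  have hFG : ∀ p q, F p q ^ 2 ≤ 16 * n ^ 4 * ∑ a, ∑ c, G a c ^ 2 := by
    intro p q
    rw [hFe p q, ← Finset.sum_product', ← Finset.sum_product' (f := fun a c => G a c ^ 2)]
    refine (sq_sum_le _ _).trans ?_
    rw [Finset.card_product, Finset.card_univ, Fintype.card_fin, mul_assoc (16 : ℝ)]
    norm_num
    rw [Finset.mul_sum]
    refine Finset.sum_le_sum fun y _ => ?_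
    rw [mul_pow]
    refine mul_le_mul_of_nonneg_right ?_ (sq_nonneg _)
    have h1 : |N y.1 p * N y.2 q| ≤ n * n := by
      rw [abs_mul]
      exact mul_le_mul (hn x hx _ _) (hn x hx _ _) (abs_nonneg _) hn0
    rw [← sq_abs]
    calc |N y.1 p * N y.2 q| ^ 2 ≤ (n * n) ^ 2 := pow_le_pow_left₀ (abs_nonneg _) h1 2
      _ = n ^ 4 := by ring
  calc ∑ p, ∑ q, F p q ^ 2 ≤ ∑ _p : Fin 4, ∑ _q : Fin 4, 16 * n ^ 4 * ∑ a, ∑ c, G a c ^ 2 :=
        Finset.sum_le_sum fun p _ => Finset.sum_le_sum fun q _ => hFG p q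
    _ = 16 * (16 * n ^ 4) * ∑ a, ∑ c, G a c ^ 2 := by
        simp only [Finset.sum_const, Finset.card_univ, Fintype.card_fin, nsmul_eq_mul]
        push_cast; ring
    _ = 16 * (16 * n ^ 4) * 2 * (∑ k, hat G k ^ 2 - wdA G G) := by rw [hat_sq G hGa]; ring
    _ ≤ _ := by
        rw [hw]
        refine mul_le_mul_of_nonneg_left ?_ (by positivity)
        linarith

/-! ## Integration by parts -/

/-- smooth with compact support -/
def SC {E : Type*} [NormedAddCommGroup E] [NormedSpace ℝ E] (f : R4 → E) : Prop :=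
  ContDiff ℝ ∞ f ∧ HasCompactSupport f

theorem SC.pd {E : Type*} [NormedAddCommGroup E] [NormedSpace ℝ E] {f : R4 → E} (h : SC f)
    (u : R4) : SC fun x => fderiv ℝ f x u :=
  ⟨(h.1.fderiv_right (m := ∞) (by simp)).clm_apply contDiff_const,
    h.2.fderiv_apply (𝕜 := ℝ) u⟩

theorem SC.int_mul {f g : R4 → ℝ} (h : SC f) (h' : SC g) : Integrable fun x => f x * g x :=
  (h.1.continuous.mul h'.1.continuous).integrable_of_hasCompactSupport h.2.mul_right

theorem SC.ibp {f g : R4 → ℝ} (h : SC f) (h' : SC g) (u : R4) :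
    ∫ x, f x * fderiv ℝ g x u = -∫ x, fderiv ℝ f x u * g x :=
  integral_mul_fderiv_eq_neg_fderiv_mul_of_integrable ((h.pd u).int_mul h')
    (h.int_mul (h'.pd u)) (h.int_mul h') (fun x _ => (h.1.differentiable (by simp)) x)
    (fun x _ => (h'.1.differentiable (by simp)) x)

theorem SC.swap {f g : R4 → ℝ} (h : SC f) (h' : SC g) (u v : R4) :
    ∫ x, fderiv ℝ f x u * fderiv ℝ g x v = ∫ x, fderiv ℝ f x v * fderiv ℝ g x u := by
  rw [(h.pd u).ibp h' v, (h.pd v).ibp h' u]
  congr 1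
  refine integral_congr_ae (Eventually.of_forall fun x => ?_)
  have h2 : ∀ u v, fderiv ℝ (fun x => fderiv ℝ f x u) x v = fderiv ℝ (fderiv ℝ f) x v u := by
    intro u v
    have hd : DifferentiableAt ℝ (fderiv ℝ f) x :=
      ((h.1.fderiv_right (m := ∞) (by simp)).differentiable (by simp)) x
    rw [fderiv_clm_apply hd (differentiableAt_const u)]
    simp
  have hs : IsSymmSndFDerivAt ℝ f x := (h.1.contDiffAt).isSymmSndFDerivAt
    (by rw [minSmoothness_of_isRCLikeNormedField]; decide)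
  change fderiv ℝ (fun x => fderiv ℝ f x u) x v * g x =
    fderiv ℝ (fun x => fderiv ℝ f x v) x u * g x
  rw [h2, h2, hs.eq]

/-- the derivatives of the components -/
def Bf (a : R4 → (Fin 4 → ℝ)) (i j : Fin 4) (x : R4) : ℝ := fderiv ℝ a x (e i) j

theorem Bf_eq {a : R4 → (Fin 4 → ℝ)} (ha : SC a) (i j : Fin 4) (x : R4) :
    Bf a i j x = fderiv ℝ (fun x => a x j) x (e i) := by
  have h1 := (ContinuousLinearMap.proj (R := ℝ) (φ := fun _ : Fin 4 => ℝ) j).hasFDerivAt
    (x := a x) |>.comp x ((ha.1.differentiable (by simp)) x).hasFDerivAt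
  have h2 : HasFDerivAt (fun x => a x j)
    ((ContinuousLinearMap.proj (R := ℝ) (φ := fun _ : Fin 4 => ℝ) j).comp (fderiv ℝ a x)) x := h1
  rw [h2.fderiv]
  rfl

theorem SC.comp {a : R4 → (Fin 4 → ℝ)} (ha : SC a) (j : Fin 4) : SC fun x => a x j :=
  ⟨contDiff_pi.1 ha.1 j, ha.2.comp_left (g := fun s : Fin 4 → ℝ => s j) rfl⟩

theorem SC.Bf {a : R4 → (Fin 4 → ℝ)} (ha : SC a) (i j : Fin 4) : SC (Bf a i j) := by
  have : E5.Bf a i j = fun x => fderiv ℝ (fun x => a x j) x (e i) := funext (Bf_eq ha i j)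
  rw [this]
  exact (ha.comp j).pd (e i)

theorem Bf_swap {a : R4 → (Fin 4 → ℝ)} (ha : SC a) (i j k l : Fin 4) :
    ∫ x, Bf a i j x * Bf a k l x = ∫ x, Bf a k j x * Bf a i l x := by
  simp only [Bf_eq ha]
  exact (ha.comp j).swap (ha.comp l) (e i) (e k)

/-- integrable with integral zero -/
def Zi (f : R4 → ℝ) : Prop := Integrable f ∧ ∫ x, f x = 0

theorem Zi.add {f g : R4 → ℝ} (h : Zi f) (h' : Zi g) : Zi fun x => f x + g x :=
  ⟨h.1.add h'.1, by rw [integral_add h.1 h'.1, h.2, h'.2, add_zero]⟩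

theorem Zi.sub {f g : R4 → ℝ} (h : Zi f) (h' : Zi g) : Zi fun x => f x - g x :=
  ⟨h.1.sub h'.1, by rw [integral_sub h.1 h'.1, h.2, h'.2, sub_zero]⟩

theorem Zi.const_mul {f : R4 → ℝ} (h : Zi f) (c : ℝ) : Zi fun x => c * f x :=
  ⟨h.1.const_mul c, by rw [integral_const_mul, h.2, mul_zero]⟩

theorem Zi_swap {a : R4 → (Fin 4 → ℝ)} (ha : SC a) (i j k l : Fin 4) :
    Zi fun x => Bf a i j x * Bf a k l x - Bf a k j x * Bf a i l x :=
  ⟨((ha.Bf i j).int_mul (ha.Bf k l)).sub ((ha.Bf k j).int_mul (ha.Bf i l)), by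
    rw [integral_sub ((ha.Bf i j).int_mul (ha.Bf k l)) ((ha.Bf k j).int_mul (ha.Bf i l)),
      Bf_swap ha i j k l, sub_self]⟩

/-- the integral of a quadratic expression in the derivatives -/
theorem int_wdA {a : R4 → (Fin 4 → ℝ)} (ha : SC a) :
    ∫ x, wdA (fun p q => Bf a p q x - Bf a q p x) (fun p q => Bf a p q x - Bf a q p x) = 0 := by
  have z := ((((((Zi_swap ha 0 1 2 3).sub (Zi_swap ha 0 1 3 2)).sub (Zi_swap ha 1 0 2 3)).add
    (Zi_swap ha 1 0 3 2)).sub (Zi_swap ha 0 2 1 3)).sub (Zi_swap ha 2 0 3 1)).const_mul 2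
  rw [← z.2]
  refine integral_congr_ae (Eventually.of_forall fun x => ?_)
  simp only [wdA]
  ring

theorem Zi.sum {ι : Type*} (s : Finset ι) {f : ι → R4 → ℝ} (h : ∀ i, Zi (f i)) :
    Zi fun x => ∑ i ∈ s, f i x :=
  ⟨integrable_finsetSum _ fun i _ => (h i).1, by
    rw [integral_finsetSum _ fun i _ => (h i).1]
    exact Finset.sum_eq_zero fun i _ => (h i).2⟩

theorem grad_point (B : Fin 4 → Fin 4 → ℝ) :
    (1 / 2) * ∑ i, ∑ j, (B i j - B j i) ^ 2 + (∑ i, B i i) ^ 2 =
      ∑ i, ∑ j, B i j ^ 2 + ∑ i, ∑ j, (B i i * B j j - B j i * B i j) := by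
  simp only [Fin.sum_univ_four]
  ring

/-- the gradient from the curl and the divergence -/
theorem int_grad {a : R4 → (Fin 4 → ℝ)} (ha : SC a) :
    ∫ x, ∑ i, ∑ j, Bf a i j x ^ 2 =
      ∫ x, ((1 / 2) * ∑ i, ∑ j, (Bf a i j x - Bf a j i x) ^ 2 + (∑ i, Bf a i i x) ^ 2) := by
  have z : Zi fun x => ∑ i, ∑ j, (Bf a i i x * Bf a j j x - Bf a j i x * Bf a i j x) :=
    Zi.sum _ fun i => Zi.sum _ fun j => Zi_swap ha i i j j
  have hI3 : Integrable fun x => ∑ i, ∑ j, Bf a i j x ^ 2 := by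
    refine integrable_finsetSum _ fun i _ => integrable_finsetSum _ fun j _ => ?_
    simpa only [sq] using (ha.Bf i j).int_mul (ha.Bf i j)
  have e1 : (fun x => (1 / 2) * ∑ i, ∑ j, (Bf a i j x - Bf a j i x) ^ 2 +
      (∑ i, Bf a i i x) ^ 2) = fun x => ∑ i, ∑ j, Bf a i j x ^ 2 +
        ∑ i, ∑ j, (Bf a i i x * Bf a j j x - Bf a j i x * Bf a i j x) := by
    funext x
    exact grad_point fun i j => Bf a i j x
  rw [e1, integral_add hI3 z.1, z.2, add_zero]

/-! ## Gårding's inequality -/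

theorem sq_eLpNorm' {E : Type*} [NormedAddCommGroup E] {f : R4 → E} (hf : MemLp f 2 volume) :
    ∫ x, ‖f x‖ ^ 2 = (eLpNorm f 2 volume).toReal ^ 2 := by
  have h1 := hf.eLpNorm_eq_integral_rpow_norm (by norm_num) (by norm_num)
  have h0 : 0 ≤ ∫ x, ‖f x‖ ^ 2 := integral_nonneg (fun x => by positivity)
  simp only [ENNReal.toReal_ofNat, Real.rpow_ofNat] at h1
  rw [h1, ENNReal.toReal_ofReal (Real.rpow_nonneg h0 _), ← Real.rpow_natCast,
    ← Real.rpow_mul h0]
  norm_num

theorem int_sq' {E : Type*} [NormedAddCommGroup E] {f : R4 → E} (hf : Continuous f)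
    (hfs : HasCompactSupport f) : Integrable fun x => ‖f x‖ ^ 2 := by
  have h1 : HasCompactSupport fun x => ‖f x‖ ^ 2 := by
    refine HasCompactSupport.intro (K := tsupport f) hfs fun x hx => ?_
    rw [image_eq_zero_of_notMem_tsupport hx, norm_zero]
    norm_num
  exact Continuous.integrable_of_hasCompactSupport (by fun_prop) h1

theorem eLpNorm_le_of_int {E E' : Type*} [NormedAddCommGroup E] [NormedAddCommGroup E']
    {f : R4 → E} {g : R4 → E'} (hf : MemLp f 2 volume) (hg : MemLp g 2 volume) {K : ℝ}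
    (hK : 0 ≤ K) (h : ∫ x, ‖f x‖ ^ 2 ≤ K * ∫ x, ‖g x‖ ^ 2) :
    eLpNorm f 2 volume ≤ ((Real.sqrt K).toNNReal : ℝ≥0∞) * eLpNorm g 2 volume := by
  rw [sq_eLpNorm' hf, sq_eLpNorm' hg] at h
  have h1 : (eLpNorm f 2 volume).toReal ≤ Real.sqrt K * (eLpNorm g 2 volume).toReal := by
    refine abs_le_of_sq_le_sq' ?_ (mul_nonneg (Real.sqrt_nonneg _) ENNReal.toReal_nonneg) |>.2
    rw [mul_pow, Real.sq_sqrt hK]
    exact h
  have e5 : ((Real.sqrt K).toNNReal : ℝ≥0∞) = ENNReal.ofReal (Real.sqrt K) := rfl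
  rw [e5, ← ENNReal.ofReal_toReal hf.2.ne, ← ENNReal.ofReal_toReal hg.2.ne,
    ← ENNReal.ofReal_mul (Real.sqrt_nonneg K)]
  exact ENNReal.ofReal_le_ofReal h1

theorem GarA {D : Data} (Q : Quat D) : Gar (MA D) := by
  intro x₀
  obtain ⟨C, C', hC, hC', hpw⟩ := pw Q (isCompact_closedBall x₀ 1)
  set K : ℝ := (1 / 2) * (C * C' * 3) + 1 with hK
  have hK0 : 0 ≤ K := by positivity
  refine ⟨1, one_pos, (Real.sqrt K).toNNReal, fun a hφ hs hsup i => ?_⟩
  have ha : SC a := ⟨hφ, hs⟩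
  have hBS : ∀ i j, SC (Bf a i j) := fun i j => ha.Bf i j
  set w : Fin 3 → R4 → ℝ := fun j x => wdA (fun p q => Bf a p q x - Bf a q p x) (triA D j x) with hw
  set out : R4 → ℝ × (Fin 3 → ℝ) := fun x => ∑ j, MA D j x (fderiv ℝ a x (e j)) with hout
  have hout' : ∀ x, out x = (∑ j, Bf a j j x, fun k => w k x) := fun x =>
    MA_apply D x fun j q => Bf a j q x
  have houtc : Continuous out :=
    continuous_finsetSum _ fun j _ => (MA_smooth D j).continuous.clm_apply (ha.pd (e j)).1.continuous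
  have houts : HasCompactSupport out := by
    refine HasCompactSupport.intro hs fun x hx => ?_
    have h2 : fderiv ℝ a x = 0 := by
      by_contra h3
      exact hx (support_fderiv_subset ℝ (f := a) h3)
    simp [hout, h2]
  -- pointwise bounds by the norm of `out`
  have p1 : ∀ x, (∑ j, Bf a j j x) ^ 2 ≤ ‖out x‖ ^ 2 := by
    intro x
    rw [← sq_abs]
    refine pow_le_pow_left₀ (abs_nonneg _) ?_ 2
    rw [hout' x]
    exact norm_fst_le (∑ j, Bf a j j x, fun k => w k x)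
  have p2 : ∀ j x, w j x ^ 2 ≤ ‖out x‖ ^ 2 := by
    intro j x
    rw [← sq_abs]
    refine pow_le_pow_left₀ (abs_nonneg _) ?_ 2
    rw [hout' x]
    exact (norm_le_pi_norm (fun k => w k x) j).trans
      (norm_snd_le (∑ j, Bf a j j x, fun k => w k x))
  have p3 : ∀ x, ∑ p, ∑ q, (Bf a p q x - Bf a q p x) ^ 2 ≤
      C * C' * 3 * ‖out x‖ ^ 2 - C * wdA (fun p q => Bf a p q x - Bf a q p x)
        (fun p q => Bf a p q x - Bf a q p x) := by
    intro x
    by_cases hx : x ∈ closedBall x₀ 1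
    · refine (hpw x hx (fun p q => Bf a p q x - Bf a q p x) (fun p q => by ring)).trans ?_
      have h1 : ∑ j, wdA (fun p q => Bf a p q x - Bf a q p x) (triA D j x) ^ 2 ≤
          3 * ‖out x‖ ^ 2 := by
        refine (Finset.sum_le_sum fun j _ => p2 j x).trans ?_
        simp
      have h2 := mul_le_mul_of_nonneg_left h1 (mul_nonneg hC hC')
      nlinarith
    · have h2 : fderiv ℝ a x = 0 := by
        by_contra h3
        exact hx (ball_subset_closedBall (hsup (support_fderiv_subset ℝ (f := a) h3)))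
      have h3 : ∀ p q, Bf a p q x = 0 := by
        intro p q
        simp [Bf, h2]
      simp only [h3, wdA]
      simp
      positivity
  -- integrability
  have i1 : Integrable fun x => ‖out x‖ ^ 2 := int_sq' houtc houts
  have hFS : ∀ p q, SC fun x => Bf a p q x - Bf a q p x := fun p q =>
    ⟨(hBS p q).1.sub (hBS q p).1, (hBS p q).2.sub (hBS q p).2⟩
  have i2 : Integrable fun x => ∑ p, ∑ q, (Bf a p q x - Bf a q p x) ^ 2 := by
    refine integrable_finsetSum _ fun p _ => integrable_finsetSum _ fun q _ => ?_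
    simpa only [sq] using (hFS p q).int_mul (hFS p q)
  have i3 : Integrable fun x => wdA (fun p q => Bf a p q x - Bf a q p x)
      (fun p q => Bf a p q x - Bf a q p x) := by
    unfold wdA
    exact ((((((hFS _ _).int_mul (hFS _ _)).sub ((hFS _ _).int_mul (hFS _ _))).add
      ((hFS _ _).int_mul (hFS _ _))).add ((hFS _ _).int_mul (hFS _ _))).sub
      ((hFS _ _).int_mul (hFS _ _))).add ((hFS _ _).int_mul (hFS _ _))
  have i4 : Integrable fun x => (∑ i, Bf a i i x) ^ 2 := by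
    have h1 : SC fun x => ∑ i, Bf a i i x := by
      simp only [Fin.sum_univ_four]
      exact ⟨(((hBS 0 0).1.add (hBS 1 1).1).add (hBS 2 2).1).add (hBS 3 3).1,
        (((hBS 0 0).2.add (hBS 1 1).2).add (hBS 2 2).2).add (hBS 3 3).2⟩
    simpa only [sq] using h1.int_mul h1
  have q1 : ∫ x, ∑ p, ∑ q, (Bf a p q x - Bf a q p x) ^ 2 ≤ C * C' * 3 * ∫ x, ‖out x‖ ^ 2 := by
    have h1 : _ ≤ ∫ x, (C * C' * 3 * ‖out x‖ ^ 2 - C * wdA (fun p q => Bf a p q x - Bf a q p x)
        (fun p q => Bf a p q x - Bf a q p x)) :=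
      integral_mono i2 ((i1.const_mul (C * C' * 3)).sub (i3.const_mul C)) p3
    rw [integral_sub (i1.const_mul _) (i3.const_mul C), integral_const_mul, integral_const_mul,
      int_wdA ha, mul_zero, sub_zero] at h1
    exact h1
  have q2 : ∫ x, (∑ i, Bf a i i x) ^ 2 ≤ ∫ x, ‖out x‖ ^ 2 := integral_mono i4 i1 p1
  have q3 : ∫ x, ∑ i, ∑ j, Bf a i j x ^ 2 ≤ K * ∫ x, ‖out x‖ ^ 2 := by
    rw [int_grad ha, integral_add (i2.const_mul _) i4, integral_const_mul]
    rw [hK, add_mul, one_mul, mul_assoc (1 / 2 : ℝ)]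
    exact add_le_add (mul_le_mul_of_nonneg_left q1 (by norm_num)) q2
  have q4 : ∫ x, ‖fderiv ℝ a x (e i)‖ ^ 2 ≤ K * ∫ x, ‖out x‖ ^ 2 := by
    refine le_trans (integral_mono (int_sq' (ha.pd (e i)).1.continuous (ha.pd (e i)).2) ?_
      fun x => ?_) q3
    · refine integrable_finsetSum _ fun p _ => integrable_finsetSum _ fun q _ => ?_
      simpa only [sq] using (hBS p q).int_mul (hBS p q)
    · change ‖fderiv ℝ a x (e i)‖ ^ 2 ≤ ∑ i, ∑ j, Bf a i j x ^ 2
      have h1 : ∑ j, Bf a i j x ^ 2 ≤ ∑ i, ∑ j, Bf a i j x ^ 2 :=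
        Finset.single_le_sum (f := fun i => ∑ j, Bf a i j x ^ 2)
          (fun i _ => Finset.sum_nonneg fun j _ => sq_nonneg _) (Finset.mem_univ i)
      refine le_trans ?_ h1
      have h2 : ‖fderiv ℝ a x (e i)‖ ≤ Real.sqrt (∑ j, Bf a i j x ^ 2) := by
        refine (pi_norm_le_iff_of_nonneg (Real.sqrt_nonneg _)).2 fun j => ?_
        refine Real.le_sqrt_of_sq_le ?_
        rw [Real.norm_eq_abs, sq_abs]
        exact Finset.single_le_sum (f := fun j => Bf a i j x ^ 2) (fun j _ => sq_nonneg _)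
          (Finset.mem_univ j)
      calc ‖fderiv ℝ a x (e i)‖ ^ 2 ≤ Real.sqrt (∑ j, Bf a i j x ^ 2) ^ 2 :=
            pow_le_pow_left₀ (norm_nonneg _) h2 2
        _ = _ := Real.sq_sqrt (Finset.sum_nonneg fun j _ => sq_nonneg _)
  refine (eLpNorm_le_of_int ((ha.pd (e i)).1.continuous.memLp_of_hasCompactSupport
    (ha.pd (e i)).2) (houtc.memLp_of_hasCompactSupport houts) hK0 q4).trans ?_
  exact mul_le_mul_right le_self_add _

end Vale.Agent.P247.H447.E5
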