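import Vale.Agent.P247.H447.E5.Ops
import Vale.Agent.P247.H94.E1
import Vale.Agent.P247.H94.LR0

/-!
# P247, package E5: Gårding's inequality for the Dirac operator
-/

open scoped ContDiff Topology ENNReal NNReal
open Set MeasureTheory Filter Metric
open Vale.Agent.P247.H74 Vale.Agent.P247.H574 Vale.Agent.P247.H647
open Vale.Agent.P247.H94 Vale.Agent.P247.H94.IL

set_option linter.unusedSectionVars false

noncomputable section

namespace Vale.Agent.P247.H447.E5

theorem sigM_rel (a b : Fin 4) : (sigM a).conjTranspose * sigM b + (sigM b).conjTranspose * sigM a =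
    if a = b then 2 else 0 := by
  have h2 : (2 : Matrix (Fin 2) (Fin 2) ℂ) = !![2, 0; 0, 2] := by
    have h3 : (2 : Matrix (Fin 2) (Fin 2) ℂ) = 1 + 1 := one_add_one_eq_two.symm
    rw [h3]
    ext i j
    fin_cases i <;> fin_cases j <;> simp <;> norm_num
  fin_cases a <;> fin_cases b <;> ext i j <;> fin_cases i <;> fin_cases j <;>
    simp [sigM, pauM, Matrix.mul_apply, Fin.sum_univ_two, Matrix.conjTranspose_apply, h2] <;>
    norm_num

theorem sig_apply (a : Fin 4) (s : Sp) (c : Fin 2) : (sig a s) c = ∑ d, sigM a c d * s d := rfl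

theorem MD_apply {D : Data} (Q : Quat D) (j : Fin 4) (x : R4) (s : Sp) (c : Fin 2) :
    (MD Q j x s) c = ∑ d, symF sigM (fun a i x => Q.b a x i) j x c d * s d := by
  have h1 : MD Q j x s = ∑ a, (Q.b a x j : ℂ) • sig a s := by
    simp only [MD, FunLike.coe_sum, Finset.sum_apply, _root_.smul_apply,
      ContinuousLinearMap.coe_restrictScalars', Complex.coe_smul]
  rw [h1]
  simp only [symF, WithLp.ofLp_sum, Finset.sum_apply, PiLp.smul_apply, sig_apply, smul_eq_mul,
    Matrix.sum_apply, Matrix.smul_apply, Finset.sum_mul, Finset.mul_sum]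
  rw [Finset.sum_comm]
  exact Finset.sum_congr rfl fun d _ => Finset.sum_congr rfl fun a _ => by ring

theorem norm_coord_le (s : Sp) (d : Fin 2) : ‖s d‖ ≤ ‖s‖ := PiLp.norm_apply_le s d

theorem norm_le_coords (s : Sp) : ‖s‖ ≤ ∑ d, ‖s d‖ := by
  have h1 : s = ∑ d, EuclideanSpace.single d (s d) := by
    ext c
    fin_cases c <;> simp
  calc ‖s‖ = ‖∑ d, EuclideanSpace.single d (s d)‖ := by rw [← h1]
    _ ≤ ∑ d, ‖EuclideanSpace.single d (s d)‖ := norm_sum_le _ _
    _ = ∑ d, ‖s d‖ := by simp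

theorem GarD {D : Data} (Q : Quat D) : Gar (MD Q) := by
  obtain ⟨lam, hcl⟩ := cliff_of_frame (τ := sigM) sigM_rel (E := fun a i x => Q.b a x i)
    (fun a i => contDiff_pi.1 (Q.b_smooth a) i)
    (fun a i n x => by
      have := Q.b_per a n x
      exact congrFun this i)
    (fun x => by
      have h := Q.b_det x
      have h2 : (Matrix.of fun a i => Q.b a x i) = (Matrix.of fun i a => Q.b a x i).transpose := by
        ext a i; rfl
      rw [h2, Matrix.det_transpose, h]
      exact one_ne_zero)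
  obtain ⟨C, hC⟩ := garding_s hcl (fun j k => by
    unfold metF
    exact continuous_finsetSum _ fun a _ =>
      (contDiff_pi.1 (Q.b_smooth a) j).continuous.mul (contDiff_pi.1 (Q.b_smooth a) k).continuous)
  intro x₀
  refine ⟨1, one_pos, 4 * C, fun φ hφ hs _ i => ?_⟩
  have hcomp : ∀ d, ContDiff ℝ ∞ fun x => φ x d := fun d =>
    ((EuclideanSpace.proj d : Sp →L[ℂ] ℂ).restrictScalars ℝ).contDiff.comp hφ
  have hcs : ∀ d, HasCompactSupport fun x => φ x d := fun d =>
    hs.comp_left (g := fun s : Sp => s d) rfl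
  have hfd : ∀ d x v, fderiv ℝ (fun x => φ x d) x v = (fderiv ℝ φ x v) d := by
    intro d x v
    have h1 := (((EuclideanSpace.proj d : Sp →L[ℂ] ℂ).restrictScalars ℝ).hasFDerivAt
      (x := φ x)).comp x ((hφ.differentiable (by simp)) x).hasFDerivAt
    have h2 : HasFDerivAt (fun x => φ x d)
      ((((EuclideanSpace.proj d : Sp →L[ℂ] ℂ).restrictScalars ℝ)).comp (fderiv ℝ φ x)) x := h1
    rw [h2.fderiv]
    rfl
  have h0 := hC (fun d x => φ x d) hcomp hcs
  have hder : ∀ u, Continuous fun x => fderiv ℝ φ x u := fun u =>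
    (hφ.continuous_fderiv (by simp)).clm_apply continuous_const
  have hL : Continuous fun x => ∑ j, MD Q j x (fderiv ℝ φ x (e j)) :=
    continuous_finsetSum _ fun j _ => (MD_smooth Q j).continuous.clm_apply (hder _)
  -- the components of the operator
  have b1 : ∀ c, eLpNorm (fun x => ∑ j, ∑ d, symF sigM (fun a i x => Q.b a x i) j x c d *
      fderiv ℝ (fun x => φ x d) x (e j)) 2 volume ≤
      eLpNorm (fun x => ∑ j, MD Q j x (fderiv ℝ φ x (e j))) 2 volume := by
    intro c
    refine eLpNorm_mono fun x => ?_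
    have : ∑ j, ∑ d, symF sigM (fun a i x => Q.b a x i) j x c d *
        fderiv ℝ (fun x => φ x d) x (e j) = (∑ j, MD Q j x (fderiv ℝ φ x (e j))) c := by
      simp only [WithLp.ofLp_sum, Finset.sum_apply, MD_apply, hfd]
    rw [this]
    exact norm_coord_le _ _
  have b2 : ∀ d, eLpNorm (fun x => φ x d) 2 volume ≤ eLpNorm φ 2 volume := fun d =>
    eLpNorm_mono fun x => norm_coord_le _ _
  have b3 : ∀ d, eLpNorm (fun x => fderiv ℝ (fun x => φ x d) x (e i)) 2 volume ≤
      C * (2 * (eLpNorm (fun x => ∑ j, MD Q j x (fderiv ℝ φ x (e j))) 2 volume +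
        eLpNorm φ 2 volume)) := by
    intro d
    refine (h0 d i).trans ?_
    refine mul_le_mul_right (a := (C : ℝ≥0∞)) ?_
    rw [Fin.sum_univ_two, Fin.sum_univ_two, two_mul]
    have := add_le_add (add_le_add (b1 0) (b1 1)) (add_le_add (b2 0) (b2 1))
    refine this.trans (le_of_eq ?_)
    ring
  have b4 : eLpNorm (fun x => fderiv ℝ φ x (e i)) 2 volume ≤
      ∑ d, eLpNorm (fun x => fderiv ℝ (fun x => φ x d) x (e i)) 2 volume := by
    have h1 : eLpNorm (fun x => fderiv ℝ φ x (e i)) 2 volume ≤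
        eLpNorm (fun x => ∑ d, ‖fderiv ℝ (fun x => φ x d) x (e i)‖) 2 volume := by
      refine eLpNorm_mono fun x => ?_
      simp only [hfd]
      rw [Real.norm_of_nonneg (Finset.sum_nonneg fun _ _ => norm_nonneg _)]
      exact norm_le_coords _
    refine h1.trans ?_
    have h2 : (fun x => ∑ d, ‖fderiv ℝ (fun x => φ x d) x (e i)‖) =
        ∑ d, fun x => ‖fderiv ℝ (fun x => φ x d) x (e i)‖ := by
      funext x; simp
    rw [h2]
    refine (eLpNorm_sum_le (fun d _ => ?_) (by norm_num)).trans ?_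
    · simp only [hfd]
      exact ((((EuclideanSpace.proj d : Sp →L[ℂ] ℂ)).continuous.comp (hder _)).norm).aestronglyMeasurable
    · exact Finset.sum_le_sum fun d _ => (eLpNorm_norm _).le
  refine b4.trans ((Finset.sum_le_sum fun d _ => b3 d).trans ?_)
  rw [Fin.sum_univ_two]
  refine le_of_eq ?_
  push_cast
  ring

end Vale.Agent.P247.H447.E5
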