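import Vale.Agent.P247.H447.E5.Sta

/-!
# P247, package E5: the truncated quadratic map has bounded derivatives
-/

open scoped ContDiff Topology ENNReal NNReal
open Set MeasureTheory Filter Metric
open Vale.Agent.P247.H74 Vale.Agent.P247.H647 Vale.Agent.P247.H931.S1

noncomputable section

namespace Vale.Agent.P247.H447.E5

theorem gT_smooth : ContDiff ℝ ∞ gT := by
  unfold gT
  have h1 : ContDiff ℝ ∞ fun t : ℝ => 1 + (t - 1) * Real.smoothTransition (t - 1) :=
    contDiff_const.add ((contDiff_id.sub contDiff_const).mul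
      (Real.smoothTransition.contDiff.comp (contDiff_id.sub contDiff_const)))
  refine h1.inv fun t => ?_
  have h2 : 0 ≤ (t - 1) * Real.smoothTransition (t - 1) := by
    rcases le_total (t - 1) 0 with h | h
    · rw [Real.smoothTransition.zero_of_nonpos h, mul_zero]
    · exact mul_nonneg h (Real.smoothTransition.nonneg _)
  positivity

theorem gT_eq {t : ℝ} (h : 2 ≤ t) : gT t = t⁻¹ := by
  unfold gT
  rw [Real.smoothTransition.one_of_one_le (by linarith)]
  congr 1
  ring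

theorem qR_smooth (R : ℝ) : ContDiff ℝ ∞ (qR R) := by
  rw [contDiff_pi]
  intro k
  unfold qR
  refine ContDiff.mul ?_ ?_
  · exact gT_smooth.comp ((contDiff_norm_sq ℝ).div_const _)
  · have h1 : ContDiff ℝ ∞ fun s : Sp => inner ℂ s (pau k s) :=
      contDiff_id.inner ℂ ((pau k).restrictScalars ℝ).contDiff
    exact Complex.reCLM.contDiff.comp h1

theorem qR_scale {R : ℝ} (hR : 0 < R) {s : Sp} (hs : 2 * R ^ 2 ≤ ‖s‖ ^ 2) {lam : ℝ}
    (hl : 1 ≤ lam) : qR R (lam • s) = qR R s := by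
  funext k
  unfold qR
  have h0 : 0 < R ^ 2 := by positivity
  have h1 : 2 ≤ ‖s‖ ^ 2 / R ^ 2 := by rw [le_div_iff₀ h0]; exact hs
  have hs0 : 0 < ‖s‖ ^ 2 := lt_of_lt_of_le (by positivity) hs
  have h2 : ‖lam • s‖ ^ 2 = lam ^ 2 * ‖s‖ ^ 2 := by
    rw [norm_smul, mul_pow, Real.norm_eq_abs, sq_abs]
  have h3 : 2 ≤ ‖lam • s‖ ^ 2 / R ^ 2 := by
    rw [h2, mul_div_assoc]
    have : 1 ≤ lam ^ 2 := one_le_pow₀ hl
    nlinarith
  have h4 : (inner ℂ (lam • s) (pau k (lam • s)) : ℂ).re = lam ^ 2 * (inner ℂ s (pau k s) : ℂ).re := by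
    have e1 : lam • s = (lam : ℂ) • s := (Complex.coe_smul lam s).symm
    rw [e1, map_smul, inner_smul_left, inner_smul_right, Complex.conj_ofReal, ← mul_assoc,
      ← Complex.ofReal_mul, Complex.re_ofReal_mul]
    ring
  rw [gT_eq h1, gT_eq h3, h4, h2]
  have hl0 : lam ≠ 0 := by positivity
  field_simp

theorem qR_deriv_bound {R : ℝ} (hR : 0 < R) (n : ℕ) :
    ∃ C : ℝ, ∀ y, ‖iteratedFDeriv ℝ n (qR R) y‖ ≤ C := by
  have hc : Continuous (iteratedFDeriv ℝ n (qR R)) :=
    (qR_smooth R).continuous_iteratedFDeriv (by exact_mod_cast le_top)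
  obtain ⟨C, hC⟩ := (isCompact_closedBall (0 : Sp) (2 * R)).exists_bound_of_continuousOn
    hc.continuousOn
  refine ⟨C, fun y => ?_⟩
  rcases le_total ‖y‖ (2 * R) with h | h
  · exact hC y (by simpa using h)
  set lam : ℝ := ‖y‖ / (2 * R) with hlam
  have hl : 1 ≤ lam := by rw [hlam, le_div_iff₀ (by positivity)]; linarith
  have hl0 : 0 < lam := by positivity
  set s : Sp := lam⁻¹ • y with hs
  have hsy : lam • s = y := by rw [hs, smul_smul, mul_inv_cancel₀ hl0.ne', one_smul]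
  have hy0 : 0 < ‖y‖ := lt_of_lt_of_le (by positivity) h
  have hsn : ‖s‖ = 2 * R := by
    rw [hs, norm_smul, norm_inv, Real.norm_eq_abs, abs_of_pos hl0, hlam]
    field_simp
  have hbs : ‖iteratedFDeriv ℝ n (qR R) s‖ ≤ C := hC s (by simp [hsn])
  let g : Sp →L[ℝ] Sp := lam • ContinuousLinearMap.id ℝ Sp
  have h1 : (qR R ∘ g) =ᶠ[𝓝 s] qR R := by
    have h2 : ∀ᶠ z in 𝓝 s, 2 * R ^ 2 < ‖z‖ ^ 2 := by
      have hcn : Continuous fun z : Sp => ‖z‖ ^ 2 := continuous_norm.pow 2
      refine hcn.continuousAt.eventually_const_lt ?_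
      change 2 * R ^ 2 < ‖s‖ ^ 2
      rw [hsn]
      nlinarith [pow_pos hR 2]
    filter_upwards [h2] with z hz
    exact qR_scale hR hz.le hl
  have h2 : iteratedFDeriv ℝ n (qR R ∘ g) s =
      (iteratedFDeriv ℝ n (qR R) (g s)).compContinuousLinearMap fun _ => g :=
    g.iteratedFDeriv_comp_right (n := ∞) (qR_smooth R) s (by exact_mod_cast le_top)
  have h3 : iteratedFDeriv ℝ n (qR R ∘ g) s = iteratedFDeriv ℝ n (qR R) s :=
    (h1.iteratedFDeriv ℝ n).eq_of_nhds
  have hgs : g s = y := hsy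
  rw [hgs] at h2
  refine (ContinuousMultilinearMap.opNorm_le_bound (norm_nonneg _) fun m => ?_).trans hbs
  have h4 : iteratedFDeriv ℝ n (qR R) y m = iteratedFDeriv ℝ n (qR R) s fun i => lam⁻¹ • m i := by
    rw [← h3, h2, ContinuousMultilinearMap.compContinuousLinearMap_apply]
    congr 1
    funext i
    simp only [g, _root_.smul_apply, ContinuousLinearMap.coe_id', id_eq]
    rw [smul_smul, mul_inv_cancel₀ hl0.ne', one_smul]
  rw [h4]
  refine (ContinuousMultilinearMap.le_opNorm _ _).trans ?_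
  refine mul_le_mul_of_nonneg_left ?_ (norm_nonneg _)
  refine Finset.prod_le_prod (fun i _ => norm_nonneg _) fun i _ => ?_
  rw [norm_smul, norm_inv, Real.norm_eq_abs, abs_of_pos hl0]
  have : lam⁻¹ ≤ 1 := inv_le_one_of_one_le₀ hl
  exact mul_le_of_le_one_left (norm_nonneg _) this

end Vale.Agent.P247.H447.E5
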