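import Vale.Agent.P247.H447.E5.Boot
import Vale.Agent.P247.H447.E5.GarA
import Vale.Agent.P247.H447.E5.GarD
import Vale.Agent.P247.H447.E5.Trunc
import Vale.Agent.P247.H94.LRC5
import Vale.Agent.P247.H109.LRk
import Vale.Agent.P247.H399.Comp

/-!
# P247, package E5: regularity of weak solutions of the truncated system
-/

namespace Vale.Agent.P247.H447.E5

theorem E5 : H931.S1.E5_statement :=
  E5_of H94.LR.LRC (H109.LRk H94.LR.LRC) H399.Emb.GNS H399.Emb.PROD H399.Emb.COMP H399.Emb.SMOOTH
    (fun _ Q => GarD Q) (fun _ Q => GarA Q) (fun R _ => qR_smooth R)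
    (fun _ hR n _ => qR_deriv_bound hR n)

end Vale.Agent.P247.H447.E5
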